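import Vale.Agent.P127.Main

/-! Sticky Kakeya sets in four dimensions have full Hausdorff dimension. -/

namespace Vale.Agent.Results.P127.Sticky4

open Vale.Agent.P127

theorem result (K : Set (EuclideanSpace ℝ (Fin 4))) (Λ : Set (AffLine 4)) (hΛ : packDim Λ ≤ 3)
    (hK : Kakeya K Λ) : dimH K = 4 :=
  sticky K Λ hΛ hK

end Vale.Agent.Results.P127.Sticky4
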